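import Mathlib

/-!
The reduction of Hermite for quadratic forms.
-/

open Matrix

namespace Vale.Agent.P011Z

namespace RD

section gen

variable {m : Type} [Fintype m] [DecidableEq m]

/-- Every integral vector is a multiple of a member of a basis. -/
theorem exists_unimod {v : m → ℤ} (hv : v ≠ 0) (i0 : m) :
    ∃ U : Matrix m m ℤ, IsUnit U.det ∧ ∃ k : ℤ, v = k • U.col i0 := by
  obtain ⟨n, bM, bN, f, a, snf⟩ := (Submodule.span ℤ {v}).smithNormalForm (Pi.basisFun ℤ m)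
  have hnt : Nontrivial (Submodule.span ℤ {v}) :=
    Submodule.nontrivial_iff_ne_bot.2 (by simpa using hv)
  obtain ⟨i⟩ : Nonempty (Fin n) := bN.index_nonempty
  obtain ⟨c, hc⟩ := Submodule.mem_span_singleton.1 (bN i).2
  have hc0 : c ≠ 0 := by
    rintro rfl
    exact bN.ne_zero i (Subtype.ext (by simpa using hc.symm))
  have hw : v = bM.repr v (f i) • bM (f i) := by
    refine bM.ext_elem fun j => ?_
    have h1 := congrArg (fun x => bM.repr x j) (hc.trans (snf i))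
    by_cases hj : f i = j
    · subst hj
      simp only [map_smul, Finsupp.smul_apply, Module.Basis.repr_self, Finsupp.single_eq_same,
        smul_eq_mul, mul_one]
    · simp only [map_smul, Finsupp.smul_apply, Module.Basis.repr_self, Finsupp.single_apply, hj,
        if_false, smul_eq_mul, mul_zero] at h1 ⊢
      exact (mul_eq_zero.1 h1).resolve_left hc0
  refine ⟨(Pi.basisFun ℤ m).toMatrix (bM.reindex (Equiv.swap (f i) i0)),
    (Pi.basisFun ℤ m).isUnit_det _, bM.repr v (f i), ?_⟩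
  have e : ((Pi.basisFun ℤ m).toMatrix (bM.reindex (Equiv.swap (f i) i0))).col i0 = bM (f i) := by
    funext j
    simp [Module.Basis.toMatrix_apply]
  rw [e]
  exact hw

/-- The quadratic form of a matrix. -/
def qf (G : Matrix m m ℝ) (x : m → ℝ) : ℝ := x ⬝ᵥ G *ᵥ x

/-- An integral vector as a real vector. -/
def zc (v : m → ℤ) : m → ℝ := fun i => (v i : ℝ)

omit [DecidableEq m] in
theorem qf_smul (G : Matrix m m ℝ) (k : ℝ) (x : m → ℝ) : qf G (k • x) = k ^ 2 * qf G x := by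
  simp only [qf, mulVec_smul, smul_dotProduct, dotProduct_smul, smul_eq_mul]
  ring

omit [DecidableEq m] in
theorem qf_conj (G P : Matrix m m ℝ) (x : m → ℝ) : qf (Pᵀ * G * P) x = qf G (P *ᵥ x) := by
  simp only [qf]
  rw [Matrix.mul_assoc, ← mulVec_mulVec, dotProduct_mulVec, vecMul_transpose, mulVec_mulVec]

omit [DecidableEq m] in
theorem zc_mulVec (U : Matrix m m ℤ) (v : m → ℤ) :
    zc (U *ᵥ v) = U.map ((↑) : ℤ → ℝ) *ᵥ zc v := by
  funext i
  simp [zc, mulVec, dotProduct]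

theorem det_map (U : Matrix m m ℤ) : (U.map ((↑) : ℤ → ℝ)).det = (U.det : ℝ) :=
  ((Int.castRingHom ℝ).map_det U).symm

theorem det_map_sq {U : Matrix m m ℤ} (hU : IsUnit U.det) :
    (U.map ((↑) : ℤ → ℝ)).det * (U.map ((↑) : ℤ → ℝ)).det = 1 := by
  rw [det_map]
  exact_mod_cast Int.isUnit_mul_self hU

theorem mulVec_ne_zero {U : Matrix m m ℤ} (hU : IsUnit U.det) {v : m → ℤ} (hv : v ≠ 0) :
    U *ᵥ v ≠ 0 := fun h => hv (eq_zero_of_mulVec_eq_zero hU.ne_zero h)

theorem col_ne_zero {U : Matrix m m ℤ} (hU : IsUnit U.det) (j : m) : U.col j ≠ 0 :=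
  fun h => hU.ne_zero (det_eq_zero_of_column_eq_zero j fun i => congrFun h i)

theorem qf_single (G : Matrix m m ℝ) (j : m) : qf G (zc (Pi.single j 1)) = G j j := by
  have e : zc (Pi.single j 1 : m → ℤ) = Pi.single j 1 := by
    funext i
    by_cases h : i = j <;> simp [zc, h]
  simp [qf, e]

end gen

variable {n : ℕ}

/-- The complement of Schur. -/
noncomputable def sch (G : Matrix (Fin (n + 1)) (Fin (n + 1)) ℝ) : Matrix (Fin n) (Fin n) ℝ :=
  of fun i j => G i.succ j.succ - G i.succ 0 / G 0 0 * G 0 j.succ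

theorem det_sch (G : Matrix (Fin (n + 1)) (Fin (n + 1)) ℝ) (h : G 0 0 ≠ 0) :
    G.det = G 0 0 * (sch G).det := by
  let c : Fin (n + 1) → ℝ := Fin.cons 0 fun i => G i.succ 0 / G 0 0
  let B : Matrix (Fin (n + 1)) (Fin (n + 1)) ℝ := of fun i j => G i j - c i * G 0 j
  have h1 : G.det = B.det := by
    refine det_eq_of_forall_row_eq_smul_add_const c 0 rfl fun i j => ?_
    simp [B, c]
  have h2 : B.submatrix (Fin.succAbove 0) Fin.succ = sch G := by
    ext i j
    simp [B, c, sch]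
  rw [h1, det_succ_column_zero, Fin.sum_univ_succ, h2, Finset.sum_eq_zero]
  · simp [B, c]
  · intro i _
    have : B i.succ 0 = 0 := by
      simp [B, c, h]
    rw [this, mul_zero, zero_mul]

theorem sch_symm {G : Matrix (Fin (n + 1)) (Fin (n + 1)) ℝ} (hs : G.IsSymm) : (sch G).IsSymm := by
  ext i j
  simp only [sch, transpose_apply, of_apply]
  rw [hs.apply i.succ j.succ, hs.apply 0 j.succ, hs.apply i.succ 0]
  ring

theorem qf_cons {G : Matrix (Fin (n + 1)) (Fin (n + 1)) ℝ} (hs : G.IsSymm) (h : G 0 0 ≠ 0)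
    (t : ℝ) (x : Fin n → ℝ) :
    qf G (Fin.cons t x) =
      G 0 0 * (t + (∑ j, G 0 j.succ * x j) / G 0 0) ^ 2 + qf (sch G) x := by
  have h1 : qf (sch G) x = ∑ i, x i * ∑ j, G i.succ j.succ * x j -
      (∑ j, G 0 j.succ * x j) ^ 2 / G 0 0 := by
    simp only [qf, sch, dotProduct, mulVec, of_apply, sub_mul, Finset.sum_sub_distrib, mul_sub]
    congr 1
    rw [sq, Finset.sum_mul, Finset.sum_div]
    refine Finset.sum_congr rfl fun i _ => ?_
    simp only [mul_assoc, ← Finset.mul_sum]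
    rw [hs.apply 0 i.succ]
    ring
  have h2 : qf G (Fin.cons t x) = t * (G 0 0 * t + ∑ j, G 0 j.succ * x j) +
      (t * ∑ j, G 0 j.succ * x j + ∑ i, x i * ∑ j, G i.succ j.succ * x j) := by
    simp only [qf, dotProduct, mulVec, Fin.sum_univ_succ, Fin.cons_zero, Fin.cons_succ, mul_add,
      Finset.sum_add_distrib]
    congr 2
    rw [Finset.mul_sum]
    refine Finset.sum_congr rfl fun i _ => ?_
    rw [hs.apply 0 i.succ]
    ring
  rw [h1, h2]
  field_simp
  ring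

theorem zc_cons (t : ℤ) (v : Fin n → ℤ) : zc (Fin.cons t v) = Fin.cons (t : ℝ) (zc v) := by
  funext i
  refine Fin.cases ?_ (fun i => ?_) i <;> simp [zc]

theorem exists_lift {G : Matrix (Fin (n + 1)) (Fin (n + 1)) ℝ} (hs : G.IsSymm) (h : 0 < G 0 0)
    (v : Fin n → ℤ) : ∃ t : ℤ, qf G (zc (Fin.cons t v)) ≤ G 0 0 / 4 + qf (sch G) (zc v) := by
  set a := (∑ j, G 0 j.succ * zc v j) / G 0 0 with ha
  refine ⟨-round a, ?_⟩
  rw [zc_cons, qf_cons hs h.ne', ← ha]
  have h1 := abs_sub_round a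
  have h2 : (((-round a : ℤ) : ℝ) + a) ^ 2 ≤ 1 / 4 := by
    rw [Int.cast_neg, neg_add_eq_sub, ← sq_abs]
    nlinarith [abs_nonneg (a - round a)]
  nlinarith

/-- Extension of an integral matrix by one row and one column. -/
def ext1 (c : Fin n → ℤ) (U : Matrix (Fin n) (Fin n) ℤ) : Matrix (Fin (n + 1)) (Fin (n + 1)) ℤ :=
  (of (Fin.cons (Pi.single 0 1) fun j => Fin.cons (c j) (U.col j)))ᵀ

theorem ext1_zero (c : Fin n → ℤ) (U : Matrix (Fin n) (Fin n) ℤ) :
    (ext1 c U).col 0 = Pi.single 0 1 := rfl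

theorem ext1_succ (c : Fin n → ℤ) (U : Matrix (Fin n) (Fin n) ℤ) (j : Fin n) :
    (ext1 c U).col j.succ = Fin.cons (c j) (U.col j) := rfl

theorem det_ext1 (c : Fin n → ℤ) (U : Matrix (Fin n) (Fin n) ℤ) : (ext1 c U).det = U.det := by
  have h2 : (ext1 c U).submatrix (Fin.succAbove 0) Fin.succ = U := by
    ext i j
    simp [ext1]
  rw [det_succ_column_zero, Fin.sum_univ_succ, h2, Finset.sum_eq_zero]
  · simp [ext1]
  · intro i _
    simp [ext1]

/-- The statement of the reduction. -/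
def Herm (m : Type) [Fintype m] [DecidableEq m] (ε D C : ℝ) : Prop :=
  ∀ G : Matrix m m ℝ, G.IsSymm → |G.det| ≤ D → (∀ v : m → ℤ, v ≠ 0 → ε ≤ qf G (zc v)) →
    ∃ U : Matrix m m ℤ, IsUnit U.det ∧ ∀ j, qf G (zc (U.col j)) ≤ C

theorem step1 {ε D C μ : ℝ} (hε : 0 < ε) (ih : Herm (Fin n) (ε / 2) (D / ε) C)
    {G : Matrix (Fin (n + 1)) (Fin (n + 1)) ℝ} (hs : G.IsSymm) (hD : |G.det| ≤ D) (hμ : ε ≤ μ)
    (h0 : G 0 0 ≤ 2 * μ) (hm : ∀ v : Fin (n + 1) → ℤ, v ≠ 0 → μ ≤ qf G (zc v)) :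
    ∃ U : Matrix (Fin (n + 1)) (Fin (n + 1)) ℤ, IsUnit U.det ∧
      ∀ j, qf G (zc (U.col j)) ≤ |D| + 4 * |C| := by
  have h1 : μ ≤ G 0 0 := by
    rw [← qf_single G 0]
    exact hm _ (by simp)
  have h2 : 0 < G 0 0 := by linarith
  have h3 : ∀ v : Fin n → ℤ, v ≠ 0 → μ / 2 ≤ qf (sch G) (zc v) := by
    intro v hv
    obtain ⟨t, ht⟩ := exists_lift hs h2 v
    have := hm (Fin.cons t v) fun h => hv (funext fun i => by simpa using congrFun h i.succ)
    linarith
  have h4 : |G.det| = G 0 0 * |(sch G).det| := by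
    rw [det_sch G h2.ne', abs_mul, abs_of_pos h2]
  have h5 : |(sch G).det| ≤ D / ε := by
    rw [le_div_iff₀ hε]
    nlinarith [abs_nonneg (sch G).det]
  obtain ⟨U, hU, hC⟩ := ih _ (sch_symm hs) h5 fun v hv => by linarith [h3 v hv]
  choose c hc using fun j => exists_lift hs h2 (U.col j)
  have h6 : G 0 0 ≤ |D| ∨ G 0 0 ≤ 4 * |C| := by
    rcases isEmpty_or_nonempty (Fin n) with h | ⟨⟨j⟩⟩
    · left
      rw [det_isEmpty (A := sch G), abs_one, mul_one] at h4
      linarith [le_abs_self D]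
    · right
      linarith [h3 _ (col_ne_zero hU j), hC j, le_abs_self C]
  refine ⟨ext1 c U, by rwa [det_ext1], fun j => Fin.cases ?_ (fun j => ?_) j⟩
  · rw [ext1_zero, qf_single]
    rcases h6 with h | h <;> linarith [abs_nonneg C, abs_nonneg D]
  · rw [ext1_succ]
    rcases h6 with h | h <;> linarith [abs_nonneg C, abs_nonneg D, hc j, hC j, le_abs_self C]

theorem step2 {ε D C : ℝ} (hε : 0 < ε) (ih : Herm (Fin n) (ε / 2) (D / ε) C) :
    Herm (Fin (n + 1)) ε D (|D| + 4 * |C|) := by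
  intro G hs hD hm
  let s : Set ℝ := (fun v => qf G (zc v)) '' {v : Fin (n + 1) → ℤ | v ≠ 0}
  have hne : s.Nonempty := ⟨_, Pi.single 0 1, by simp, rfl⟩
  have hlb : ε ∈ lowerBounds s := by
    rintro _ ⟨v, hv, rfl⟩
    exact hm v hv
  have hμ : ε ≤ sInf s := le_csInf hne hlb
  have hle : ∀ v : Fin (n + 1) → ℤ, v ≠ 0 → sInf s ≤ qf G (zc v) :=
    fun v hv => csInf_le ⟨ε, hlb⟩ ⟨v, hv, rfl⟩
  obtain ⟨_, ⟨v, hv, rfl⟩, hlt⟩ := exists_lt_of_csInf_lt hne (show sInf s < 2 * sInf s by linarith)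
  obtain ⟨U, hU, k, hk⟩ := exists_unimod hv 0
  have hk0 : k ≠ 0 := by
    rintro rfl
    exact hv (by simpa using hk)
  have hq : ∀ w, qf ((U.map ((↑) : ℤ → ℝ))ᵀ * G * U.map ((↑) : ℤ → ℝ)) (zc w) =
      qf G (zc (U *ᵥ w)) := fun w => by rw [qf_conj, zc_mulVec]
  have h0 : qf G (zc (U.col 0)) ≤ 2 * sInf s := by
    have e : zc v = (k : ℝ) • zc (U.col 0) := by
      funext i
      simp [zc, hk]
    have h1 : (1 : ℝ) ≤ (k : ℝ) ^ 2 := by
      exact_mod_cast (one_le_sq_iff_one_le_abs k).2 (Int.one_le_abs hk0)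
    have h2 := hm _ (col_ne_zero hU 0)
    simp only [e, qf_smul] at hlt
    nlinarith
  obtain ⟨V, hV, hC⟩ := step1 (G := (U.map ((↑) : ℤ → ℝ))ᵀ * G * U.map ((↑) : ℤ → ℝ)) hε ih
    (by simp [IsSymm, transpose_mul, hs.eq, Matrix.mul_assoc])
    (by
      rw [det_mul, det_mul, det_transpose, mul_right_comm, det_map_sq hU, one_mul]
      exact hD) hμ
    (by
      refine (qf_single _ 0).symm.trans_le ?_
      rw [hq, mulVec_single_one]
      exact h0)
    fun w hw => by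
      rw [hq]
      exact hle _ (mulVec_ne_zero hU hw)
  refine ⟨U * V, by rw [det_mul]; exact hU.mul hV, fun j => ?_⟩
  have := hC j
  rwa [hq] at this

theorem herm_fin (n : ℕ) : ∀ {ε : ℝ}, 0 < ε → ∀ D : ℝ, ∃ C, Herm (Fin n) ε D C := by
  induction n with
  | zero => exact fun _ _ => ⟨0, fun _ _ _ _ => ⟨1, by simp, fun j => j.elim0⟩⟩
  | succ n ih =>
    intro ε hε D
    obtain ⟨C, hC⟩ := ih (half_pos hε) (D / ε)
    exact ⟨_, step2 hε hC⟩

theorem herm (m : Type) [Fintype m] [DecidableEq m] {ε : ℝ} (hε : 0 < ε) (D : ℝ) :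
    ∃ C, Herm m ε D C := by
  obtain ⟨C, hC⟩ := herm_fin (Fintype.card m) hε D
  let e := Fintype.equivFin m
  refine ⟨C, fun G hs hD hm => ?_⟩
  have hq : ∀ v : Fin (Fintype.card m) → ℤ,
      qf (G.submatrix e.symm e.symm) (zc v) = qf G (zc (v ∘ e)) := by
    intro v
    simp only [qf, dotProduct, mulVec, zc, submatrix_apply, Function.comp_apply]
    rw [← e.sum_comp]
    refine Finset.sum_congr rfl fun i _ => ?_
    rw [← e.sum_comp]
    simp
  obtain ⟨U, hU, h⟩ := hC (G.submatrix e.symm e.symm) (hs.submatrix _)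
    (by rwa [det_submatrix_equiv_self]) fun v hv => by
      rw [hq]
      exact hm _ fun h0 => hv (funext fun i => by simpa using congrFun h0 (e.symm i))
  refine ⟨U.submatrix e e, by rwa [det_submatrix_equiv_self], fun j => ?_⟩
  have := h (e j)
  rwa [hq] at this

end RD

end Vale.Agent.P011Z
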